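import Vale.Agent.P207.H256.TopR
import Vale.Agent.P207.FDefsN

/-!
# P207 (helper256): the final statement with a uniform order, in the public language
-/

open scoped Manifold ContDiff ENNReal Topology
open Bundle MeasureTheory Set Filter Topology

noncomputable section

set_option maxSynthPendingDepth 3
set_option linter.unusedSectionVars false

namespace Vale.Agent.P207.H256

open Vale.Agent.P255 (RMetric coefIn Gam Riem)
open Vale.Agent.P207.Kat

variable {n : ℕ} {M : Type} [TopologicalSpace M] [ChartedSpace (EV n) M]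
  [IsManifold 𝓘(ℝ, EV n) ∞ M] [CompactSpace M] [T2Space M] [ConnectedSpace M]
  [MeasurableSpace M] [BorelSpace M]

section

variable [NeZero n] {g : RMetric (EV n) M} [Nonempty (Q.Fr g)] (D : Dat g)

theorem STRr_mono {s t : ℕ} (hst : s ≤ t) (h : D.STRr s) : D.STRr t := by
  obtain ⟨ε, hε, h⟩ := h
  exact ⟨ε, hε, fun g' D' k h1 h2 h3 h4 => h g' D' k h1 h2 h3 ((D.hT_mono hst k).trans h4)⟩

end

/-- **the final statement** with the order `N`, for any finite cover by compact pieces of charts -/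
theorem public_of_r (hn : 2 ≤ n) {g₀ : RMetric (EV n) M} (hN : P207F.NegCurvature g₀)
    {N : ℕ} (hN2 : 2 ≤ N)
    (hSTR : ∀ [NeZero n] [Nonempty (Q.Fr g₀)] (D : Dat g₀), D.STRr N)
    (hEQ : ∀ [NeZero n] [Nonempty (Q.Fr g₀)] (D : Dat g₀), H476.EQr D N)
    (m : ℕ) (a : Fin m → M) (K : Fin m → Set (EV n)) (hK : P207F.ChartCover a K) :
    ∃ ε > (0 : ℝ), ∀ g : RMetric (EV n) M,
      (∀ i, P207F.CkClose (P207F.stdB n) g₀ g N (a i) (K i) ε) →
      P207F.NegCurvature g ∧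
      (P207F.hLiou (P207F.stdB n) g = P207F.hTop g ↔ P207F.LocSymmetric g) ∧
      (P207F.vol (P207F.stdB n) g univ = P207F.vol (P207F.stdB n) g₀ univ →
        P207F.hLiou (P207F.stdB n) g ≤ P207F.hTop g₀ ∧ P207F.hTop g₀ ≤ P207F.hTop g ∧
        (P207F.hLiou (P207F.stdB n) g = P207F.hTop g₀ ↔ P207F.LocSymmetric g) ∧
        (P207F.hTop g = P207F.hTop g₀ ↔ P207F.LocSymmetric g)) := by
  have : NeZero n := ⟨by omega⟩
  have hM : Nonempty M := inferInstance
  obtain ⟨D⟩ := Dat.nonempty (g := g₀) hM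
  have hF : Nonempty (Q.Fr g₀) := by
    have := D.hP.prob
    exact nonempty_of_isProbabilityMeasure D.mP
  obtain ⟨ε₁, hε₁, F⟩ := hSTR D
  obtain ⟨ε₂, hε₂, E⟩ := hEQ D
  obtain ⟨ε₃, hε₃, NN⟩ := H440.negCurvature_near hN hK.1 hK.2
  obtain ⟨ε, hε, H⟩ := H566.nbh D ⟨m, a, K, fun i => (hK.1 i).1, fun i => (hK.1 i).2, hK.2⟩
    N (min ε₁ ε₂) (lt_min hε₁ hε₂)
  refine ⟨min ε ε₃, lt_min hε hε₃, fun g hc => ?_⟩
  have hg : P207F.NegCurvature g := NN g fun i j l q hq u hu =>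
    (hc i j l q (hq.trans hN2) u hu).trans_le (min_le_right _ _)
  obtain ⟨D'⟩ := Dat.nonempty (g := g) hM
  have hk : IsK g₀ g (H992.kS g₀ g) := fun p i j => rfl
  have hkδ := H g fun i j l q hq u hu => (hc i j l q hq u hu).trans_le (min_le_left _ _)
  have h1 : D.hT N (H992.kS g₀ g) ≤ ε₁ := hkδ.trans (min_le_left _ _)
  have h2 : D.hT N (H992.kS g₀ g) ≤ ε₂ := hkδ.trans (min_le_right _ _)
  rw [← H566.hTop_eq hn D', ← H566.hLiou_eq hn D', ← H566.hTop_eq hn D, ← H566.dat_μ hn D',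
    ← H566.dat_μ hn D]
  exact ⟨hg, ⟨E g D' _ hg hk h2, fun h =>
    ksEntropy_eq_of_locSymmetric hn D'.hφ D'.hμ D'.hm hg h⟩,
    fun hvol => F g D' _ hg hvol hk h1⟩

/-- the order of the final theorem -/
def oN (n r : ℕ) : ℕ := oF n r + dF n

theorem oN_eq (n : ℕ) : oN n (4 * dF n + 6) = 65 * (n * (n + 1) / 2) + 112 := by
  unfold oN oF dF
  omega

/-- the uniform final statement, from the positivity with the order `r` -/
theorem public_of_posr (hn : 2 ≤ n) {g₀ : RMetric (EV n) M} (hN : P207F.NegCurvature g₀)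
    (hS : P207F.LocSymmetric g₀) {r : ℕ}
    (hPOS : ∀ [NeZero n] [Nonempty (Q.Fr g₀)] (D : Dat g₀), D.POSr r)
    (m : ℕ) (a : Fin m → M) (K : Fin m → Set (EV n)) (hK : P207F.ChartCover a K) :
    ∃ ε > (0 : ℝ), ∀ g : RMetric (EV n) M,
      (∀ i, P207F.CkClose (P207F.stdB n) g₀ g (oN n r) (a i) (K i) ε) →
      P207F.NegCurvature g ∧
      (P207F.hLiou (P207F.stdB n) g = P207F.hTop g ↔ P207F.LocSymmetric g) ∧
      (P207F.vol (P207F.stdB n) g univ = P207F.vol (P207F.stdB n) g₀ univ →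
        P207F.hLiou (P207F.stdB n) g ≤ P207F.hTop g₀ ∧ P207F.hTop g₀ ≤ P207F.hTop g ∧
        (P207F.hLiou (P207F.stdB n) g = P207F.hTop g₀ ↔ P207F.LocSymmetric g) ∧
        (P207F.hTop g = P207F.hTop g₀ ↔ P207F.LocSymmetric g)) :=
  public_of_r (N := oN n r) hn hN (by unfold oN oF; omega)
    (fun D => STRr_mono D (Nat.le_add_right _ _) (strr_of_posr D hn hN hS (hPOS D)))
    (fun D => eqr_of_posr D hn hN hS (hPOS D)) m a K hK

end Vale.Agent.P207.H256
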