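import Vale.Agent.P207.Kat.Spec

/-!
# P207 (helper256): the interfaces of the blocks with explicit orders of differentiability

The statements of `Kat/Spec.lean` with the existential orders replaced by parameters. Aim: the
final order `N` depends only on the dimension `n`.
-/

open scoped Manifold ContDiff ENNReal Topology
open Bundle MeasureTheory Set Filter Topology

noncomputable section

set_option maxSynthPendingDepth 3
set_option linter.unusedSectionVars false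

namespace Vale.Agent.P207.Kat

open Vale.Agent.P255 (RMetric coefIn Gam Riem innerAt)
open Vale.Agent.P207 Vale.Agent.P207.Q Vale.Agent.P207.H442
open Vale.Agent.P207.H476 (Dfo pull)

variable {n : ℕ} {M : Type} [TopologicalSpace M] [ChartedSpace (EV n) M]
  [IsManifold 𝓘(ℝ, EV n) ∞ M] [NeZero n] [CompactSpace M] [T2Space M] [MeasurableSpace M]
  [BorelSpace M]

namespace Dat

variable {g : RMetric (EV n) M} (D : Dat g) [Nonempty (Fr g)]

/-- the Sobolev inequality with loss of `d` derivatives -/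
def SobOrd (d : ℕ) : Prop :=
  ∃ K : ℝ, 0 < K ∧ ∀ (s : ℕ) (u : SmFr g), D.c s u ≤ K * D.h (s + d) u

/-- `POSStmt` with the order `r` -/
def POSr (r : ℕ) : Prop :=
  ∃ K : ℝ, 0 < K ∧ ∀ k : Fin n → Fin n → SmFr g, GT2 k →
    ∃ y : Fin n → SmFr g, GAdm y ∧ D.cV 1 y ≤ K * D.hT r k ∧
      D.I (∑ i, ∑ j, k i j * k i j) ≤
        K * (D.Q k y + D.hV r (divf (frCalc g) k) ^ 2 + D.I (∑ i, k i i) ^ 2)

/-- `STEPStmt` with the order `r₀` -/
def STEPr (r₀ : ℕ) : Prop :=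
  ∀ r₁ r : ℕ, r₀ + r₁ ≤ r → ∃ K : ℝ, 0 < K ∧
    ∀ (g' : RMetric (EV n) M) (k : Fin n → Fin n → SmFr g), IsK g g' k → K * D.hT r k ≤ 1 →
      ∃ (ψ : Dfo n M) (k' : Fin n → Fin n → SmFr g), IsK g (pull g' ψ) k' ∧
        D.hT (8 * r) k' ≤ K * D.hT (8 * r) k ∧ D.hT 0 k' ≤ K * D.hT r k ∧
        D.hV r₁ (divf (frCalc g) k') ≤ K * D.hT r k ^ 2

/-- `LIMStmt` with the order `s` -/
def LIMr (s : ℕ) : Prop :=
  LocSymmetric g → ∀ g' : RMetric (EV n) M,
    (∀ δ > (0 : ℝ), ∃ (ψ : Dfo n M) (k : Fin n → Fin n → SmFr g), IsK g (pull g' ψ) k ∧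
      D.hT s k ≤ δ) → LocSymmetric g'

/-- `FINStmt` with the order `s` -/
def FINr (s : ℕ) : Prop :=
  ∃ ε > (0 : ℝ), ∀ (g' : RMetric (EV n) M) (D' : Dat g')
    (k : Fin n → Fin n → SmFr g), NegCurvature g' → D'.μ univ = D.μ univ → IsK g g' k →
    D.hT s k ≤ ε →
    (topEntropy (D'.φ 1) ≤ topEntropy (D.φ 1) ∨ ksEntropy D.m (D.φ 1) ≤ ksEntropy D'.m (D'.φ 1)) →
    LocSymmetric g'

theorem posStmt_of_posr {r : ℕ} (h : D.POSr r) : D.POSStmt := by
  obtain ⟨K, hK, h⟩ := h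
  exact ⟨K, r, hK, h⟩

theorem stepStmt_of_stepr {r₀ : ℕ} (h : D.STEPr r₀) : D.STEPStmt := ⟨r₀, h⟩

theorem limStmt_of_limr {s : ℕ} (h : D.LIMr s) : D.LIMStmt := fun hS => ⟨s, h hS⟩

theorem finStmt_of_finr {s : ℕ} (h : D.FINr s) : D.FINStmt := ⟨s, h⟩

/-- the Sobolev inequality for tensors -/
theorem cT_le_of_sobOrd {d : ℕ} (h : D.SobOrd d) : ∃ K : ℝ, 0 < K ∧
    ∀ (s : ℕ) (k : Fin n → Fin n → SmFr g), D.cT s k ≤ K * D.hT (s + d) k := by
  obtain ⟨K, hK, h⟩ := h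
  refine ⟨K, hK, fun s k => ?_⟩
  unfold cT hT
  rw [Finset.mul_sum]
  refine Finset.sum_le_sum fun i _ => ?_
  rw [Finset.mul_sum]
  exact Finset.sum_le_sum fun j _ => h s (k i j)

end Dat

end Vale.Agent.P207.Kat
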