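import Vale.Agent.P207.Kat.Master
import Vale.Agent.P207.H256.SpecR
import Vale.Agent.P207.H476.FinR
import Vale.Agent.P207.H832.UniFr
import Vale.Agent.P207.H440.SobOrd
import Vale.Agent.P207.H440.NegNear
import Vale.Agent.P207.H566.Close
import Vale.Agent.P207.H566.Public
import Vale.Agent.P207.H566.StrR

/-!
# P207 (helper256): the final statement with an order which depends only on the dimension

The only hypothesis is `POSr` (positivity with an explicit order).
-/

open scoped Manifold ContDiff ENNReal Topology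
open Bundle MeasureTheory Set Filter Topology

noncomputable section

set_option maxSynthPendingDepth 3
set_option linter.unusedSectionVars false

namespace Vale.Agent.P207.H256

open Vale.Agent.P255 (RMetric coefIn Gam Riem innerAt)
open Vale.Agent.P207 Vale.Agent.P207.Q Vale.Agent.P207.H442
open Vale.Agent.P207.Kat

/-- the dimension of the frame bundle, the order of the Sobolev inequality -/
def dF (n : ℕ) : ℕ := n * (n + 1) / 2

/-- the order of the theorem at fixed volume, `r` the order of the positivity -/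
def oF (n r : ℕ) : ℕ := 8 * ((2 * dF n + 3) + r + dF n + (3 + dF n) + 2)

variable {n : ℕ} {M : Type} [TopologicalSpace M] [ChartedSpace (EV n) M]
  [IsManifold 𝓘(ℝ, EV n) ∞ M] [CompactSpace M] [T2Space M] [ConnectedSpace M]
  [MeasurableSpace M] [BorelSpace M]

section

variable [NeZero n] {g : RMetric (EV n) M} [Nonempty (Fr g)] (D : Dat g)

theorem sobOrd : D.SobOrd (dF n) := by
  obtain ⟨K, hK, h⟩ := H440.sobOrd D
  refine ⟨K, hK, fun s u => ?_⟩
  have h1 := h s u
  rwa [H440.card_Kp] at h1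

/-- **(LIM)** with the order -/
theorem limr {d : ℕ} (hd : D.SobOrd d) : D.LIMr (3 + d) := by
  intro hS g' hg'
  obtain ⟨K, hK, hsob⟩ := D.cT_le_of_sobOrd hd
  refine H566.locSymmetric_of_small (horFlows g) D.hP D.hφ D.hmp (H566.d3c D) hS fun δ hδ => ?_
  obtain ⟨ψ, k, hk, hkδ⟩ := hg' (δ / K) (div_pos hδ hK)
  refine ⟨ψ, fun i j => ?_⟩
  rw [H992.isK_unique hk] at hkδ
  have h1 : D.c 3 (H992.kS g (H476.pull g' ψ) i j) ≤ D.cT 3 (H992.kS g (H476.pull g' ψ)) := by
    have e1 : D.c 3 (H992.kS g (H476.pull g' ψ) i j) ≤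
        ∑ j, D.c 3 (H992.kS g (H476.pull g' ψ) i j) :=
      Finset.single_le_sum (f := fun j => D.c 3 (H992.kS g (H476.pull g' ψ) i j))
        (fun l _ => D.c_nonneg 3 _) (Finset.mem_univ j)
    have e2 : ∑ j, D.c 3 (H992.kS g (H476.pull g' ψ) i j) ≤
        D.cT 3 (H992.kS g (H476.pull g' ψ)) :=
      Finset.single_le_sum (f := fun i => ∑ j, D.c 3 (H992.kS g (H476.pull g' ψ) i j))
        (fun l _ => Finset.sum_nonneg fun q _ => D.c_nonneg 3 _) (Finset.mem_univ i)
    exact e1.trans e2
  have h2 := (hsob 3 (H992.kS g (H476.pull g' ψ))).trans (mul_le_mul_of_nonneg_left hkδ hK.le)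
  rw [mul_div_cancel₀ _ hK.ne'] at h2
  exact h1.trans h2

/-- **(STEP)** with the order -/
theorem stepr (hn : 2 ≤ n) (hN : NegCurvature g) (hS : LocSymmetric g) {d : ℕ}
    (hd : D.SobOrd d) : D.STEPr (2 * d + 3) :=
  H832.stepr D hn hN hS hd

/-- **(B2)** -/
theorem b2Stmt (hn : 2 ≤ n) (hN : NegCurvature g) : D.B2Stmt :=
  H992.b2Stmt hn D hN (H248.expA D (npc_of_neg hN)) (H608.expB D)

/-- **(FIN)** from the positivity, with the orders -/
theorem finr_of_posr (hn : 2 ≤ n) (hN : NegCurvature g) (hS : LocSymmetric g) {r : ℕ}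
    (hPOS : D.POSr r) : D.FINr (oF n r) :=
  H476.finr_of D hn hN hS (sobOrd D) (b2Stmt D hn hN) (H992.volStmt D) hPOS
    (stepr D hn hN hS (sobOrd D)) (limr D (sobOrd D))

/-- both entropies at fixed volume, from the positivity, with the orders -/
theorem strr_of_posr (hn : 2 ≤ n) (hN : NegCurvature g) (hS : LocSymmetric g) {r : ℕ}
    (hPOS : D.POSr r) : D.STRr (oF n r) :=
  H566.strr_of D hn hN hS (by omega) (sobOrd D) (b2Stmt D hn hN) (H992.volStmt D) hPOS
    (stepr D hn hN hS (sobOrd D)) (limr D (sobOrd D))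

/-- **(EQ)** from the positivity, with the orders -/
theorem eqr_of_posr (hn : 2 ≤ n) (hN : NegCurvature g) (hS : LocSymmetric g) {r : ℕ}
    (hPOS : D.POSr r) : H476.EQr D (oF n r + dF n) :=
  H476.eqr_of_sobOrd D hn hN hS (sobOrd D) (finr_of_posr D hn hN hS hPOS)

end

end Vale.Agent.P207.H256
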